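import Crest.Agent.X212.Ray9.Core

/-!
# Row 212, EN-RAY (helper9): the statement
-/

set_option autoImplicit false
set_option linter.unusedSectionVars false
noncomputable section
open scoped Manifold ContDiff Topology InnerProductSpace
open MeasureTheory Filter Set

namespace Crest.Agent.X212.Ray9
open An Cyf70
open End23 (Hd MulStmt RayStmt fN fx kp)
open Sw (En3)
open Sw.En3 (sl nm)

variable {κ lam ν : Type} [Fintype κ] [Fintype lam] [Fintype ν] [DecidableEq ν]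
  {e : En3 κ lam ν} {u : e.Y.M → ℂ} (H : Hd e u) (a₀ : κ → e.Y.M → ℝ) (σ : ℝ → ℝ) {w : ℝ}
  {b : ℝ → ℝ} {S : Set ℝ} {ψ : ℝ → ℝ} (A : e.ZC) (t : ℝ)

theorem fN_re : fN H a₀ σ (sl (e := e.re w b S ψ) A t) = rN H a₀ σ (sl A t) := rfl

theorem fx_re : fx H a₀ σ (sl (e := e.re w b S ψ) A t) = rx H a₀ σ (sl A t) := rfl

theorem kp_re : kp (w := w) (b := b) (S := S) (ψ := ψ) H a₀ σ A t = rk H a₀ σ A t := rfl

variable {A t} in
/-- a global configuration with the same germ along a slice -/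
theorem glob {I : Set ℝ} (hI : IsOpen I) (hA : e.cyl.AdmOn A (univ ×ˢ I)) (ht : t ∈ I) :
    ∃ c : e.ZC, e.cyl.Adm c ∧ (∀ᶠ s in 𝓝 t, sl c s = sl A s) ∧
      ∀ y, (∀ i, c.a i =ᶠ[𝓝 (y, t)] A.a i) ∧ c.Φ =ᶠ[𝓝 (y, t)] A.Φ := by
  obtain ⟨r, hr, h1⟩ := Metric.nhds_basis_closedBall.mem_iff.1 (hI.mem_nhds ht)
  let φ : ContDiffBump t := ⟨r / 2, r, half_pos hr, half_lt_self hr⟩
  have h2 : ∀ y : e.Y.M, ∀ᶠ x in 𝓝 (y, t), φ x.2 = 1 := fun y =>
    (continuous_snd.tendsto (y, t)).eventually φ.eventuallyEq_one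
  exact ⟨Sw88.cut (fun x => φ x.2) A, Sw88.adm_cut (isOpen_univ.prod hI) hA (sm_snd φ.contDiff)
    fun x hx => ⟨trivial, h1 (φ.tsupport_eq ▸ tsupport_comp_subset_preimage _ continuous_snd hx)⟩,
    φ.eventuallyEq_one.mono fun s hs => by
      simp only [sl, Sw88.cut, show φ s = 1 from hs, one_smul],
    fun y => ⟨Sw88.cut_a (h2 y), Sw88.cut_Φ (h2 y)⟩⟩

/-- **EN-RAY** -/
theorem ray (hM : MulStmt κ lam ν) : RayStmt κ lam ν := by
  intro e u he H a₀ σ K₀ h0 hσ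
  obtain ⟨K, K0, h⟩ := core H he hM (of_fo h0) (hσ.sm.differentiable (by simp))
  refine ⟨K, K0, fun w b S ψ _ A I hI hA t ht hn => ?_⟩
  obtain ⟨c, h3, h4, h2⟩ := glob (e := e) (A := A) hI ⟨hA.sa, hA.sΦ, hA.pa, hA.pΦ⟩ ht
  have h5 : rk H a₀ σ c t = rk H a₀ σ A t := by
    simp only [rk, df, h4.self_of_nhds, fun y => Sw88.fc_congr (b := e.cyl) (h2 y).1]
  simp only [fN_re, fx_re, kp_re]
  obtain ⟨k1, k2⟩ := h _ h3 t (by rw [h4.self_of_nhds]; exact hn)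
  rw [h4.self_of_nhds, h5] at k1 k2
  refine ⟨k1, fun β hD => ?_⟩
  obtain ⟨l', N', j1, j2, j3⟩ := k2 β fun y => by
    rw [Sw88.eD_congr (h2 y).1 (h2 y).2, (h2 y).2.self_of_nhds]
    exact hD y
  exact ⟨l', N', j1.congr_of_eventuallyEq (h4.mono fun s hs => by simp only [hs]; rfl),
    j2.congr_of_eventuallyEq (h4.mono fun s hs => by simp only [hs]), j3⟩

end Crest.Agent.X212.Ray9
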