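import Crest.Agent.X212.Ray9.Frm
import Crest.Agent.X212.Win45.Jet
import Crest.Agent.X212.Sw88.Cut

/-!
# Row 212, EN-RAY (helper9): the Rayleigh quotient along a solution of the Dirac equation
-/

set_option autoImplicit false
set_option linter.unusedSectionVars false
noncomputable section
open scoped Manifold ContDiff Topology InnerProductSpace
open MeasureTheory Filter Finset

namespace Crest.Agent.X212.Ray9
open An Sob92 Cyf70 Dl42 Dl23 Op78
open Wz78 hiding GP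
open End23 (Fo n1 d0 Hd dr fq Sg MulStmt RayStmt)
open Sw (Bg F2 En3)
open Sw.En3 (sl fz nm)
open Lw78 (da)

variable {κ lam ν : Type} [Fintype κ] [Fintype lam] [Fintype ν] [DecidableEq ν]
  {e : En3 κ lam ν} {c : e.ZC} {v : e.YC} {u : e.Y.M → ℂ} (H : Hd e u) (a₀ : κ → e.Y.M → ℝ)
  (σ : ℝ → ℝ)

/-- the frequency -/
def rN (v : e.YC) : ℝ := (∫ y, ⟪dr (hv H a₀ σ v) y, v.Φ y⟫_ℝ ∂e.D.F.μ) / nm v

/-- the variance -/
def rx (v : e.YC) : ℝ := √(fq (rN H a₀ σ v) (hv H a₀ σ v) / nm v)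

/-- the difference of the curvatures -/
def df (c : e.ZC) (t : ℝ) (y : e.Y.M) : F2 κ :=
  e.cyl.fc c (y, t) - e.cyl.fc (fz (⟨a₀, 0⟩ : e.YC)) (y, 0)

/-- the defect -/
def rk (c : e.ZC) (t : ℝ) : ℝ := (∫ y, ‖df a₀ c t y‖ ^ 2 ∂e.D.F.μ) +
  (H.s ((sl c t).a - a₀) - σ (H.s ((sl c t).a - a₀))) ^ 2

/-- the electric field -/
def el (c : e.ZC) (t : ℝ) : κ → e.Y.M → ℝ := (sl (dt c) t).a - d0 e fun y => c.a none (y, t)

variable {a₀} (he : e.OK)
include he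

theorem fq_eq (h : Ay v) (β : ℝ) :
    fq β v = ‖tH e.D.F.toPre 0 (GP v) - β • tH e.D.F.toPre 0 v.Φ‖ ^ 2 := by
  have s : Sm e.Y.I fun y => β • v.Φ y := (contMDiff_const (I' := 𝓘(ℝ, ℝ)) (c := β)).smul h.sΦ
  rw [← tH_smul _ 0 _ h.sΦ, ← tH_sub _ 0 (sm_GP he h) s, fq, dr_eq he h]
  exact (sq_tH _ ((sm_GP he h).sub s)).symm

theorem cont_fc (hc : e.cyl.Adm c) (t : ℝ) : Continuous fun y => e.cyl.fc c (y, t) :=
  (PiLp.continuous_toLp 2 _).comp (continuous_pi fun s =>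
    (sm_slice_fst (Win45.sm_fc he.cyl hc.sa s) t).continuous)

theorem fs_el (hc : e.cyl.Adm c) (t : ℝ) : el c t ∈ FS e :=
  sub_mem (ay_sl (adm_dt he hc) t).fs (fs_d0 (sm_slice_fst (hc.sa none) t))

theorem small_of (h0 : a₀ ∈ FS e) (hc : e.cyl.Adm c) (t : ℝ) :
    n1 e 1 ((sl c t).a - (hv H a₀ σ (sl c t)).a) ≤ (H.K + n1 e 1 H.η) * √(rk H a₀ σ c t) ∧
      n1 e 0 (el c t) ≤ Fintype.card κ * √(rk H a₀ σ c t) ∧ 0 ≤ rk H a₀ σ c t := by
  have A := ay_of (fo_of h0)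
  have hα := sub_mem (ay_sl hc t).fs h0
  have c1 : Continuous (df a₀ c t) := (cont_fc he hc t).sub (cont_fc he (fo_of h0) 0)
  have p0 : 0 ≤ ∫ y, ‖df a₀ c t y‖ ^ 2 ∂e.D.F.μ := integral_nonneg fun _ => sq_nonneg _
  have k : ∀ {V : Type} [NormedAddCommGroup V] [InnerProductSpace ℝ V] {f : e.Y.M → V},
      (∀ y, ‖f y‖ ≤ ‖df a₀ c t y‖) → e.D.F.nrm 0 f ≤ √(rk H a₀ σ c t) := fun h =>
    (le_of_pt _ zero_le_one c1 fun y => (h y).trans_eq (one_mul _).symm).trans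
      ((one_mul _).trans_le (Real.sqrt_le_sqrt (le_add_of_nonneg_right (sq_nonneg _))))
  refine ⟨?_, (sum_le_card_nsmul _ _ _ fun i _ => k fun y => ?_).trans_eq (nsmul_eq_mul _ _),
    add_nonneg p0 (sq_nonneg _)⟩
  · have s1 := (FS e).smul_mem (H.s ((sl c t).a - a₀)) (fs_η H)
    rw [show (sl c t).a - (hv H a₀ σ (sl c t)).a = ((sl c t).a - a₀ - d0 e (H.G ((sl c t).a - a₀)) -
      H.s ((sl c t).a - a₀) • H.η) + (H.s ((sl c t).a - a₀) - σ (H.s ((sl c t).a - a₀))) • H.η by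
        rw [hv]; module, add_mul]
    refine (n1_add 1 (sub_mem (sub_mem hα (fs_d0 (H.sm _ (fo_of hα)))) s1)
      ((FS e).smul_mem _ (fs_η H))).trans (add_le_add ((H.le _ (fo_of hα)).2.2.2.trans
        (mul_le_mul_of_nonneg_left (k fun y => ?_) H.K0)) ?_)
    · have h1 := da_add hα h0 y
      rw [sub_add_cancel] at h1
      have h2 : ∀ i j, da e.D.F ((sl c t).a - a₀) y (i, j) = df a₀ c t y (some i, some j) :=
        fun i j => by
          rw [df, PiLp.sub_apply, fc_ss he hc, fc_ss he (fo_of h0), h1, PiLp.add_apply]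
          exact ((add_sub_add_left_eq_sub _ _ _).trans (add_sub_cancel_right _ _)).symm
      refine le_of_sq_le_sq (b := ‖df a₀ c t y‖) ?_ (norm_nonneg _)
      simp only [PiLp.norm_sq_eq_of_L2, Fintype.sum_prod_type, Fintype.sum_option, h2,
        sum_add_distrib]
      exact le_add_of_nonneg_of_le (by positivity) (le_add_of_nonneg_left (by positivity))
    · rw [n1_smul 1 _ (fs_η H), mul_comm]
      exact mul_le_mul_of_nonneg_left (Real.abs_le_sqrt (le_add_of_nonneg_left p0)) (n1_nonneg 1)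
  · refine le_of_eq_of_le (congrArg _ ?_) (PiLp.norm_apply_le (df a₀ c t y) (none, some i))
    rw [df, PiLp.sub_apply, fc_n0 he A _ (.inl rfl), fc_n he hc _ (.inl rfl), sub_zero]
    exact congrArg (_ - ·) (D_some e.D.F.toPre (hc.sa none) i (y, t)).symm

theorem bds : ∃ C ≥ (0 : ℝ), ‖e.m.J‖ ≤ C ∧ ∀ k y, ‖e.m.J * τ e k y‖ ≤ C ∧
    ‖H.η k y • (e.m.J * τ e k y)‖ ≤ C := by
  have c1 : ∀ k, Continuous fun y => e.m.J * τ e k y := fun k =>
    continuous_const.mul (ContMDiff.continuous ((sy he).sm k))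
  obtain ⟨C, hC⟩ := isCompact_univ.exists_bound_of_continuousOn (f := fun y => (e.m.J,
    fun k => (e.m.J * τ e k y, H.η k y • (e.m.J * τ e k y)))) (continuous_const.prodMk
      (continuous_pi fun k => (c1 k).prodMk ((H.cl.sm k).continuous.smul (c1 k)))).continuousOn
  have h := fun y => norm_prod_le_iff.1 (hC y trivial)
  obtain ⟨y⟩ : Nonempty e.Y.M := inferInstance
  exact ⟨C, (norm_nonneg _).trans (h y).1, (h y).1, fun k y =>
    norm_prod_le_iff.1 ((norm_le_pi_norm _ k).trans (h y).2)⟩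

theorem core (hM : MulStmt κ lam ν) (h0 : a₀ ∈ FS e) {σ : ℝ → ℝ} (hσ : Differentiable ℝ σ) :
    ∃ K ≥ (0 : ℝ), ∀ c : e.ZC, e.cyl.Adm c → ∀ t, 0 < nm (sl c t) →
    (∀ β, (rN H a₀ σ (sl c t) - β) ^ 2 + rx H a₀ σ (sl c t) ^ 2 ≤ 2 * fq β (sl c t) / nm (sl c t) +
      K * rk H a₀ σ c t * (1 + rx H a₀ σ (sl c t) + |rN H a₀ σ (sl c t)|)) ∧
    ∀ β : ℝ, (∀ y, e.cyl.eD c (y, t) = β • e.m.ρ none y (c.Φ (y, t))) →
      ∃ l' N', HasDerivAt (fun s => Real.log (nm (sl c s))) l' t ∧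
        HasDerivAt (fun s => rN H a₀ σ (sl c s)) N' t ∧
        N' ≤ -rx H a₀ σ (sl c t) ^ 2 / 2 + K * rk H a₀ σ c t * (1 + |rN H a₀ σ (sl c t)|) +
          (K * rk H a₀ σ c t) ^ 2 + K * |deriv σ (H.s ((sl c t).a - a₀))| * √(rk H a₀ σ c t) ∧
        |l' + 2 * rN H a₀ σ (sl c t) - 2 * β| ≤
          √(K * rk H a₀ σ c t * (1 + rx H a₀ σ (sl c t) + |rN H a₀ σ (sl c t)|)) := by
  obtain ⟨B, hB⟩ := isCompact_univ.exists_bound_of_continuousOn
    (cont_fc he (fo_of h0) 0).continuousOn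
  obtain ⟨M, hM⟩ := hM e he B
  obtain ⟨C, C0, C1, C2⟩ := bds H he
  have K0 := H.K0
  have η0 : 0 ≤ n1 e 1 H.η := n1_nonneg 1
  set m : ℝ := (Fintype.card κ : ℝ)
  set D := C * (H.K + n1 e 1 H.η + H.K * m)
  have m0 : 0 ≤ m := Nat.cast_nonneg _
  have k1 : 0 ≤ D ^ 2 * |M| := by positivity
  have k2 : 0 ≤ H.K * m * (m * C) := by positivity
  refine ⟨4 * (D ^ 2 * |M|) + H.K * m * (m * C), by positivity, fun c hc t hn => ?_⟩
  obtain ⟨s1, s2, s3⟩ := small_of H σ he h0 hc t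
  let F := e.D.F.toPre
  have A := ay_sl hc t
  have A' := ay_hv H σ h0 A
  have n0 : nm (sl c t) = ‖tH F 0 (sl c t).Φ‖ ^ 2 := (sq_tH F A.sΦ).symm
  have hN : rN H a₀ σ (sl c t) = ⟪tH F 0 (GP (hv H a₀ σ (sl c t))), tH F 0 (sl c t).Φ⟫_ℝ /
      ‖tH F 0 (sl c t).Φ‖ ^ 2 := by rw [inner_tH F (sm_GP he A') A.sΦ, rN, n0, dr_eq he A']
  have hx : rx H a₀ σ (sl c t) = √(‖tH F 0 (GP (hv H a₀ σ (sl c t))) - rN H a₀ σ (sl c t) •
      tH F 0 (sl c t).Φ‖ ^ 2 / ‖tH F 0 (sl c t).Φ‖ ^ 2) := by rw [rx, n0, fq_eq he A']; rfl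
  have x0 : 0 ≤ rx H a₀ σ (sl c t) := Real.sqrt_nonneg _
  have hn' := hn.trans_eq n0
  set z := 1 + rx H a₀ σ (sl c t) + |rN H a₀ σ (sl c t)|
  have z0 : 0 ≤ z := by positivity
  set q := √(|M| * z) * ‖tH F 0 (sl c t).Φ‖
  have one : ∀ {T : e.Y.M → En ν} {g : e.Y.M → ℝ}, (∀ y, ‖T y‖ ≤ C) → Sm e.Y.I g →
      F.nrm 0 (fun y => g y • T y ((sl c t).Φ y)) ≤ C * q * F.nrm 1 g := fun {T g} h1 h2 => by
    refine (le_of_pt F C0 (h2.smul A.sΦ).continuous fun y => ?_).trans ?_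
    · rw [← map_smul]; exact (T y).le_of_opNorm_le (h1 y) _
    have h3 := hM _ A'.adm (fun y => fc_hv he H σ h0 A y ▸ hB y trivial) g h2
    rw [show nm (hv H a₀ σ (sl c t)) = _ from n0, fq_eq he A', zero_smul, sub_zero,
      Real.sqrt_sq (norm_nonneg _), Real.sqrt_sq (norm_nonneg _)] at h3
    rw [mul_assoc]
    refine mul_le_mul_of_nonneg_left (Real.sqrt_le_iff.2 ⟨by have := nrm_nonneg (F := F) 1 g; positivity,
      h3.trans ?_⟩) C0
    rw [mul_pow, mul_pow, Real.sq_sqrt (by positivity)]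
    calc _ ≤ |M| * F.nrm 1 g ^ 2 * (‖tH F 0 (sl c t).Φ‖ * (‖tH F 0 (sl c t).Φ‖ +
          ‖tH F 0 (sl c t).Φ‖ * (rx H a₀ σ (sl c t) + |rN H a₀ σ (sl c t)|))) := by
          gcongr
          exacts [le_abs_self M, norm_le hn' hN hx]
      _ = _ := by simp only [z]; ring
  have hg := sub_mem A.fs A'.fs
  set g := (sl c t).a - (hv H a₀ σ (sl c t)).a with hg'
  have sρ := fun k => (hg.1 k).smul (sm_J he A.sΦ k)
  have sρ' : Sm e.Y.I fun y => ∑ k, g k y • e.m.J (τ e k y ((sl c t).Φ y)) :=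
    fun y => SA.sum _ fun k _ => sρ k y
  have r1 : ‖tH F 0 fun y => ∑ k, g k y • e.m.J (τ e k y ((sl c t).Φ y))‖ ≤
      C * q * ((H.K + n1 e 1 H.η) * √(rk H a₀ σ c t)) := by
    rw [norm_tH F 0 sρ']
    refine ((nrm_sum_le _ 0 (fun k _ => sρ k) fun _ _ => .of_compactSpace _).trans
      ((sum_le_sum fun k _ => one (fun y => (C2 k y).1) (hg.1 k)).trans_eq
        (mul_sum ..).symm)).trans (mul_le_mul_of_nonneg_left s1 (by positivity))
  have e1 : ∀ y, GP (sl c t) y = GP (hv H a₀ σ (sl c t)) y -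
      ∑ k, g k y • e.m.J (τ e k y ((sl c t).Φ y)) := fun y => by
    simp only [GP, hg', Pi.sub_apply, sub_smul, sum_sub_distrib,
      show (hv H a₀ σ (sl c t)).Φ = (sl c t).Φ from rfl]
    abel
  have fin : ∀ {R : F.H 0 (triv e.Y.M (Eu ν))}, ‖R‖ ≤ D * q * √(rk H a₀ σ c t) →
      ‖R‖ ^ 2 ≤ D ^ 2 * |M| * rk H a₀ σ c t * z * ‖tH F 0 (sl c t).Φ‖ ^ 2 := fun h =>
    (pow_le_pow_left₀ (norm_nonneg _) h 2).trans_eq (by
      rw [mul_pow, mul_pow, mul_pow (√_), Real.sq_sqrt s3, Real.sq_sqrt (by positivity)]; ring)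
  have t0 : 0 ≤ C * q * (H.K * (m * √(rk H a₀ σ c t))) := by positivity
  refine ⟨fun β => (var_le hn' hN hx (fin (r1.trans ((le_add_of_nonneg_right t0).trans_eq
    (by simp only [D]; ring)))) β).trans (add_le_add ?_ ?_), fun β hD => ?_⟩
  · rw [fq_eq he A, n0, funext e1, tH_sub F 0 (sm_GP he A') sρ']
  · nlinarith [mul_nonneg (mul_nonneg k1 s3) z0, mul_nonneg (mul_nonneg k2 s3) z0]
  have hE := fo_of (fs_el he hc t)
  have sG := H.sm _ hE
  have sn := sm_slice_fst (hc.sa none) t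
  have sJ : Sm e.Y.I fun y => e.m.J ((sl c t).Φ y) := fun y => SA.clm _ (A.sΦ y)
  obtain ⟨x1, r, x2⟩ := H.ex _ sn
  have x3 : (sl (dt c) t).a = el c t + d0 e fun y => c.a none (y, t) := (sub_add_cancel _ _).symm
  have hd : d0 e (H.G (sl (dt c) t).a) = d0 e (H.G (el c t) + fun y => c.a none (y, t)) := by
    funext k y
    rw [x3, map_add, funext x2]
    exact (congrArg (fun f => e.D.F.D k f y) (funext fun x => (add_assoc _ _ _).symm)).trans
      ((congrFun (e.D.F.D_add (sG.add sn) contMDiff_const k) y).trans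
        ((congrArg (_ + ·) (congrFun (dv_const r) y)).trans (add_zero _)))
  have d1 := p_der he H h0 hσ (fy_sl hc) t (sG.add sn) hd
  have d2 := (fy_sl hc).nm.int F t
  have e2 : ∀ y, (sl (dt c) t).Φ y + (H.G (el c t) + fun y => c.a none (y, t)) y •
      e.m.J ((sl c t).Φ y) = β • (sl c t).Φ y - GP (hv H a₀ σ (sl c t)) y +
        (∑ k, g k y • e.m.J (τ e k y ((sl c t).Φ y)) + H.G (el c t) y • e.m.J ((sl c t).Φ y)) := by
    intro y
    have h1 := eD_split he hc y t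
    rw [hD, map_smul, ρρ he, show e.m.p y _ = _ from p_of he.cyl (hc.pΦ (y, t)), smul_neg,
      neg_neg, e1] at h1
    simp only [sl, Pi.add_apply, add_smul] at h1 ⊢
    rw [h1]; abel
  have sβ : Sm e.Y.I fun y => β • (sl c t).Φ y :=
    (contMDiff_const (I' := 𝓘(ℝ, ℝ)) (c := β)).smul A.sΦ
  have s2' : Sm e.Y.I fun y => H.G (el c t) y • e.m.J ((sl c t).Φ y) := sG.smul sJ
  have sW := (sβ.sub (sm_GP he A')).add (sρ'.add s2')
  have e3 := (tH_add F 0 (sβ.sub (sm_GP he A')) (sρ'.add s2')).trans (congrArg₂ _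
    ((tH_sub F 0 sβ (sm_GP he A')).trans (congrArg (· - _) (tH_smul F 0 β A.sΦ)))
    (tH_add F 0 sρ' s2'))
  have r2 : ‖tH F 0 fun y => H.G (el c t) y • e.m.J ((sl c t).Φ y)‖ ≤
      C * q * (H.K * (m * √(rk H a₀ σ c t))) := by
    rw [norm_tH F 0 s2']
    exact (one (T := fun _ => e.m.J) (fun _ => C1) sG).trans (mul_le_mul_of_nonneg_left
      ((H.le _ hE).1.trans (mul_le_mul_of_nonneg_left s2 K0)) (by positivity))
  obtain ⟨f1, f2⟩ := der_le hn' hN hx (fin ((norm_add_le _ _).trans ((add_le_add r1 r2).trans_eq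
    (by simp only [D]; ring)))) β (deriv σ (H.s ((sl c t).a - a₀)) * H.s (sl (dt c) t).a *
      ∑ k, ∫ y, H.η k y * qq e k (sl c t).Φ (sl c t).Φ y ∂e.D.F.μ)
  have e4 : ∫ y, 2 * ⟪(sl c t).Φ y, (sl (dt c) t).Φ y⟫_ℝ ∂F.μ = 2 * ∫ y, ⟪(sl c t).Φ y,
      (sl (dt c) t).Φ y + (H.G (el c t) + fun y => c.a none (y, t)) y • e.m.J ((sl c t).Φ y)⟫_ℝ
        ∂F.μ := by
    simp only [inner_add_right, real_inner_smul_right, real_inner_comm (e.m.J _),
      Skew.self (J_skw he), mul_zero, add_zero, integral_const_mul]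
  rw [e4] at d2
  simp only [e2, dr_eq he A'] at d1 d2
  erw [← inner_tH F (sm_GP he A') sW, e3] at d1
  erw [← inner_tH F A.sΦ sW, e3] at d2
  refine ⟨_, _, d2.log hn.ne', d1.fun_div d2 hn.ne', ?_, ?_⟩
  · have j : ∀ k, |∫ y, H.η k y * qq e k (sl c t).Φ (sl c t).Φ y ∂e.D.F.μ| ≤ C * nm (sl c t) :=
      fun k => by
        rw [nm, ← integral_const_mul, ← Real.norm_eq_abs]
        refine norm_integral_le_of_norm_le ((ii F (((fy_sl hc).nm).sm.sl t)).const_mul C)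
          (.of_forall fun y => ?_)
        rw [qq, ← real_inner_smul_left, sq, ← mul_assoc]
        exact (norm_inner_le_norm _ _).trans (mul_le_mul_of_nonneg_right
          ((H.η k y • (e.m.J * τ e k y)).le_of_opNorm_le (C2 k y).2 _) (norm_nonneg _))
    have j1 := (abs_sum_le_sum_abs _ univ).trans ((sum_le_card_nsmul _ _ _ fun k _ => j k).trans_eq
      (nsmul_eq_mul _ _))
    have j2 : |H.s (sl (dt c) t).a| ≤ H.K * (m * √(rk H a₀ σ c t)) := by
      rw [x3, map_add, x1, add_zero]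
      exact (H.le _ hE).2.1.trans (mul_le_mul_of_nonneg_left s2 K0)
    rw [← n0] at f1
    rw [show (∫ y, ⟪dr (hv H a₀ σ (sl c t)) y, (sl c t).Φ y⟫_ℝ ∂e.D.F.μ) = _ by
      rw [dr_eq he A', ← inner_tH F (sm_GP he A') A.sΦ]]
    refine f1.trans (add_le_add (add_le_add (add_le_add le_rfl ?_) ?_) ?_)
    · gcongr
      linarith
    · gcongr
      linarith
    · rw [div_le_iff₀ hn, abs_mul, abs_mul]
      calc _ ≤ |deriv σ (H.s ((sl c t).a - a₀))| * (H.K * (m * √(rk H a₀ σ c t))) *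
            (m * (C * nm (sl c t))) := by gcongr; exact j1
        _ = H.K * m * (m * C) * |deriv σ (H.s ((sl c t).a - a₀))| * √(rk H a₀ σ c t) *
            nm (sl c t) := by ring
        _ ≤ _ := by gcongr; linarith
  · rw [← n0] at f2
    refine f2.trans (Real.sqrt_le_sqrt ?_)
    nlinarith [mul_nonneg (mul_nonneg k2 s3) z0]

end Crest.Agent.X212.Ray9
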