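import Crest.Agent.X212.Dl42.Fam
import Crest.Agent.X212.Sob92.Rep

/-!
# Row 212, EN-RAY (helper9): Rayleigh quotients in a Hilbert space, curves in `L²`
-/

set_option autoImplicit false
set_option linter.unusedSectionVars false
noncomputable section
open scoped Manifold ContDiff Topology InnerProductSpace
open MeasureTheory Set Filter Asymptotics

namespace Crest.Agent.X212.Ray9
open An Sob92 Wz78 Cyf70 Dl42

section hil
variable {X : Type} [NormedAddCommGroup X] [InnerProductSpace ℝ X] {φ ψ ρ : X} {N x : ℝ}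
  (h0 : 0 < ‖φ‖ ^ 2) (hN : N = ⟪ψ, φ⟫_ℝ / ‖φ‖ ^ 2) (hx : x = √(‖ψ - N • φ‖ ^ 2 / ‖φ‖ ^ 2))
include h0 hN hx

theorem dec : ∃ ξ, ψ = ξ + N • φ ∧ ⟪ξ, φ⟫_ℝ = 0 ∧ ‖ξ‖ = x * ‖φ‖ ∧ 0 ≤ x ∧ 0 < ‖φ‖ := by
  have h1 : 0 < ‖φ‖ := lt_of_le_of_ne (norm_nonneg _) fun k => by simp [← k] at h0
  refine ⟨ψ - N • φ, (sub_add_cancel _ _).symm, ?_, ?_, hx ▸ Real.sqrt_nonneg _, h1⟩
  · rw [inner_sub_left, real_inner_smul_left, real_inner_self_eq_norm_sq, hN,
      div_mul_cancel₀ _ h0.ne', sub_self]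
  · rw [hx, ← div_pow, Real.sqrt_sq (by positivity), div_mul_cancel₀ _ h1.ne']

theorem var_eq (β : ℝ) : (N - β) ^ 2 + x ^ 2 = ‖ψ - β • φ‖ ^ 2 / ‖φ‖ ^ 2 := by
  obtain ⟨ξ, rfl, h1, h2, -, -⟩ := dec h0 hN hx
  rw [add_sub_assoc, ← sub_smul, norm_add_sq_real, real_inner_smul_right, h1, norm_smul, h2,
    eq_div_iff h0.ne', mul_pow, mul_pow, Real.norm_eq_abs, sq_abs]
  ring

theorem norm_le : ‖ψ‖ ≤ ‖φ‖ * (x + |N|) := by
  obtain ⟨ξ, rfl, -, h2, -, -⟩ := dec h0 hN hx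
  refine (norm_add_le _ _).trans_eq ?_
  rw [h2, norm_smul, Real.norm_eq_abs]
  ring

variable {k : ℝ} (hρ : ‖ρ‖ ^ 2 ≤ k * (1 + x + |N|) * ‖φ‖ ^ 2)
include hρ

theorem var_le (β : ℝ) :
    (N - β) ^ 2 + x ^ 2 ≤ 2 * ‖ψ - ρ - β • φ‖ ^ 2 / ‖φ‖ ^ 2 + 2 * k * (1 + x + |N|) := by
  rw [var_eq h0 hN hx, div_add' _ _ _ h0.ne']
  gcongr
  have h := norm_add_le (ψ - ρ - β • φ) ρ
  rw [show ψ - ρ - β • φ + ρ = ψ - β • φ by abel] at h
  nlinarith [pow_le_pow_left₀ (norm_nonneg _) h 2, sq_nonneg (‖ψ - ρ - β • φ‖ - ‖ρ‖)]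

theorem der_le (β c : ℝ) :
    ((2 * ⟪ψ, β • φ - ψ + ρ⟫_ℝ - c) * ‖φ‖ ^ 2 - ⟪ψ, φ⟫_ℝ * (2 * ⟪φ, β • φ - ψ + ρ⟫_ℝ)) /
        (‖φ‖ ^ 2) ^ 2 ≤ -x ^ 2 / 2 + k * (1 + |N|) + k ^ 2 + |c| / ‖φ‖ ^ 2 ∧
      |2 * ⟪φ, β • φ - ψ + ρ⟫_ℝ / ‖φ‖ ^ 2 + 2 * N - 2 * β| ≤ √(4 * k * (1 + x + |N|)) := by
  obtain ⟨ξ, rfl, h1, h2, h3, h4⟩ := dec h0 hN hx
  have h5 := real_inner_comm ξ φ
  have h6 := real_inner_le_norm ξ ρ
  have h7 := abs_real_inner_le_norm φ ρ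
  simp only [inner_add_left, inner_add_right, inner_sub_right, real_inner_smul_left,
    real_inner_smul_right, real_inner_self_eq_norm_sq φ, real_inner_self_eq_norm_sq ξ, h5, h1,
    h2] at h6 ⊢
  refine ⟨?_, Real.le_sqrt_of_sq_le ?_⟩
  · rw [add_div' _ _ _ h0.ne', div_le_div_iff₀ (by positivity) h0]
    have : -2 * (x * ‖φ‖) ^ 2 + 2 * ⟪ξ, ρ⟫_ℝ - c ≤
        (-x ^ 2 / 2 + k * (1 + |N|) + k ^ 2) * ‖φ‖ ^ 2 + |c| := by
      nlinarith [neg_abs_le c, sq_nonneg (x * ‖φ‖ - ‖ρ‖), mul_nonneg h0.le (sq_nonneg (x - k)),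
        mul_nonneg h0.le (sq_nonneg k)]
    exact le_of_eq_of_le (by ring) (mul_le_mul_of_nonneg_right this (by positivity))
  · rw [show _ + 2 * N - 2 * β = 2 * ⟪φ, ρ⟫_ℝ / ‖φ‖ ^ 2 by field_simp; ring, sq_abs, div_pow,
      div_le_iff₀ (by positivity), mul_pow, ← sq_abs ⟪φ, ρ⟫_ℝ]
    nlinarith [pow_le_pow_left₀ (abs_nonneg _) h7 2, mul_le_mul_of_nonneg_left hρ h0.le]

end hil

variable {E : Type} [NormedAddCommGroup E] [NormedSpace ℝ E] [FiniteDimensional ℝ E]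
  [MeasurableSpace E] [BorelSpace E]
  {HM : Type} [TopologicalSpace HM] {I : ModelWithCorners ℝ E HM} [I.Boundaryless]
  {Y : Type} [TopologicalSpace Y] [ChartedSpace HM Y] [IsManifold I ∞ Y] [T2Space Y]
  [MeasurableSpace Y] [BorelSpace Y] [CompactSpace Y] {ι : Type} [Fintype ι]
  {V : Type} [NormedAddCommGroup V] [InnerProductSpace ℝ V] (F : Pre I Y ι) (k : ℕ) {u v : Y → V}

open Classical in
/-- the class of a smooth function -/
def tH (u : Y → V) : F.H k (triv Y V) :=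
  if h : Sm I u then F.toH k _ ⟨u, mem_triv h (.of_compactSpace _)⟩ else 0

theorem tH_eq (h : Sm I u) : tH F k u = F.toH k _ ⟨u, mem_triv h (.of_compactSpace _)⟩ := dif_pos h

theorem norm_tH (h : Sm I u) : ‖tH F k u‖ = F.nrm k u := by rw [tH_eq F k h, Pre.norm_toH]

theorem inner_tH (h : Sm I u) (h' : Sm I v) :
    ⟪tH F 0 u, tH F 0 v⟫_ℝ = ∫ y, ⟪u y, v y⟫_ℝ ∂F.μ := by
  rw [tH_eq F 0 h, tH_eq F 0 h', Pre.inner_toH]; rfl

theorem sq_tH (h : Sm I u) : ‖tH F 0 u‖ ^ 2 = ∫ y, ‖u y‖ ^ 2 ∂F.μ := by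
  simp only [← real_inner_self_eq_norm_sq, inner_tH F h h]

theorem tH_add (h : Sm I u) (h' : Sm I v) :
    tH F k (fun y => u y + v y) = tH F k u + tH F k v := by
  rw [tH_eq F k h, tH_eq F k h', ← map_add]; exact tH_eq F k (h.add h')

theorem tH_sub (h : Sm I u) (h' : Sm I v) :
    tH F k (fun y => u y - v y) = tH F k u - tH F k v := by
  rw [tH_eq F k h, tH_eq F k h', ← map_sub]; exact tH_eq F k (h.sub h')

theorem tH_smul (r : ℝ) (h : Sm I u) : tH F k (fun y => r • u y) = r • tH F k u := by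
  rw [tH_eq F k h, ← map_smul]
  exact tH_eq F k ((contMDiff_const (I' := 𝓘(ℝ, ℝ)) (c := r)).smul h)

theorem le_of_pt {W : Type} [NormedAddCommGroup W] [NormedSpace ℝ W] {w : Y → W} {C : ℝ}
    (hC : 0 ≤ C) (hw : Continuous w) (h : ∀ y, ‖u y‖ ≤ C * ‖w y‖) :
    F.nrm 0 u ≤ C * √(∫ y, ‖w y‖ ^ 2 ∂F.μ) := by
  rw [← Real.sqrt_sq hC, ← Real.sqrt_mul (sq_nonneg _), ← integral_const_mul, nrm_eq]
  exact Real.sqrt_le_sqrt (integral_mono_of_nonneg (.of_forall fun _ => sq_nonneg _)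
    (((hw.norm.pow 2).integrable_of_hasCompactSupport (.of_compactSpace _)).const_mul _)
    (.of_forall fun y => (pow_le_pow_left₀ (norm_nonneg _) (h y) 2).trans_eq (mul_pow _ _ _)))

variable {f f' : ℝ → Y → V} (h : Fam I f f') (t : ℝ)
include h

theorem small : (fun s => F.nrm 0 fun y => f s y - f t y - (s - t) • f' t y) =o[𝓝 t] fun s => s - t := by
  have c : ∀ {u : Y → V}, Sm I u → Fam I (fun _ => u) fun _ _ => 0 := fun hu =>
    ⟨sm_fst hu, fun _ _ => hasDerivAt_const _ _⟩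
  have s' := h.sm' F
  have r : Fam I (fun s y => f s y - f t y - (s - t) • f' t y) fun s y => f' s y - f' t y :=
    ⟨(h.sm.sub (sm_fst (h.sm.sl t))).sub ((contMDiff_snd.sub contMDiff_const).smul
      (sm_fst (s'.sl t))), fun s y => by
        simpa using ((h.dr s y).sub_const _).fun_sub (((hasDerivAt_id s).sub_const t).smul_const _)⟩
  have r' := (fam_cyl F s').sub (c (s'.sl t))
  have q1 := (((r'.inner r).add (r.inner r')).int F t).isLittleO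
  simp only [sub_self, zero_smul, inner_zero_left, inner_zero_right, add_zero, integral_zero,
    smul_zero, sub_zero] at q1
  have q2 := convex_univ.isLittleO_pow_succ_real (n := 1) (mem_univ t)
    (fun s _ => ((r.inner r).int F s).hasDerivWithinAt) (by simpa only [nhdsWithin_univ, pow_one])
  simp only [sub_self, zero_smul, inner_zero_left, integral_zero, sub_zero, nhdsWithin_univ] at q2
  refine .of_pow (n := 2) (q2.congr_left fun s => ?_) two_ne_zero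
  exact ((nrm_sq 0 _).trans (ip_eq 0 _).symm).symm

theorem der_tH : HasDerivAt (fun s => tH F 0 (f s)) (tH F 0 (f' t)) t := by
  refine .of_isLittleO (.of_norm_left ((small F h t).congr_left fun s => ?_))
  have s' := (h.sm' F).sl t
  have s1 : Sm I fun y => (s - t) • f' t y := (contMDiff_const (I' := 𝓘(ℝ, ℝ)) (c := s - t)).smul s'
  have s2 : Sm I fun y => f s y - f t y := (h.sm.sl s).sub (h.sm.sl t)
  rw [← tH_smul F 0 _ s', ← tH_sub F 0 (h.sm.sl s) (h.sm.sl t), ← tH_sub F 0 s2 s1]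
  exact (norm_tH F 0 (s2.sub s1)).symm

end Crest.Agent.X212.Ray9
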