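import Crest.Agent.X212.End23.Nek
import Crest.Agent.X212.Dl42.Main
import Crest.Agent.X212.Ray9.Hil

/-!
# Row 212, EN-RAY (helper9): one-forms, the curvature, the derivative of the Dirac form
-/

set_option autoImplicit false
set_option linter.unusedSectionVars false
noncomputable section
open scoped Manifold ContDiff Topology InnerProductSpace
open MeasureTheory Filter Asymptotics Finset

namespace Crest.Agent.X212.Ray9
open An Sob92 Cyf70 Dl42 Dl23 Op78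
open Wz78 hiding GP
open End23 (Fo n1 d0 Hd dr fq)
open Sw (Bg F2 En3)
open Sw.En3 (sl fz nm)
open Lw78 (da)

variable {κ lam ν : Type} [Fintype κ] [Fintype lam] [Fintype ν] [DecidableEq ν]
  {e : En3 κ lam ν} {c : e.ZC} {a b : κ → e.Y.M → ℝ} {χ : e.Y.M → ℝ} {v : e.YC}

variable (e) in
/-- smooth one-forms -/
def FS : Submodule ℝ (κ → e.Y.M → ℝ) where
  carrier := {a | (∀ k, Sm e.Y.I (a k)) ∧ ∀ k y, ∑ j, e.D.F.P k j y • a j y = a k y}
  add_mem' h h' := ⟨fun k => (h.1 k).add (h'.1 k), fun k y => by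
    simp only [Pi.add_apply, smul_add, sum_add_distrib, h.2, h'.2]⟩
  zero_mem' := ⟨fun _ => contMDiff_const, fun k y => by simp⟩
  smul_mem' r a h := ⟨fun k => (contMDiff_const (I' := 𝓘(ℝ, ℝ)) (c := r)).smul (h.1 k), fun k y => by
    simp only [Pi.smul_apply, smul_comm _ r, ← smul_sum, h.2]⟩

theorem fo_of (h : a ∈ FS e) : Fo e a :=
  Ay.adm (v := ⟨a, 0⟩) ⟨h.1, contMDiff_const, h.2, fun _ => map_zero _⟩

theorem of_fo (h : Fo e a) : a ∈ FS e := ⟨(ay_of h).sa, (ay_of h).pa⟩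

theorem _root_.Crest.Agent.X212.Dl42.Ay.fs (h : Ay v) : v.a ∈ FS e := ⟨h.sa, h.pa⟩

theorem fs_d0 (h : Sm e.Y.I χ) : d0 e χ ∈ FS e :=
  ⟨e.D.F.sm_D h, fun k y => (frm _).projD k χ y⟩

theorem n1_add (k : ℕ) (h : a ∈ FS e) (h' : b ∈ FS e) : n1 e k (a + b) ≤ n1 e k a + n1 e k b :=
  (sum_le_sum fun i _ => nrm_add_le k (h.1 i) (.of_compactSpace _) (h'.1 i)
    (.of_compactSpace _)).trans_eq sum_add_distrib

theorem n1_smul (k : ℕ) (r : ℝ) (h : a ∈ FS e) : n1 e k (r • a) = |r| * n1 e k a :=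
  (sum_congr rfl fun i _ => nrm_const_smul k r (h.1 i)).trans (mul_sum ..).symm

theorem n1_nonneg (k : ℕ) : 0 ≤ n1 e k a := sum_nonneg fun _ _ => nrm_nonneg _ _

theorem da_add (h : a ∈ FS e) (h' : b ∈ FS e) (y) :
    da e.D.F (a + b) y = da e.D.F a y + da e.D.F b y := by
  ext s
  simp only [da, Pi.add_apply, e.D.F.D_add (h.1 _) (h'.1 _), PiLp.add_apply, mul_add,
    sum_add_distrib]
  ring

theorem da_smul (r : ℝ) (h : a ∈ FS e) (y) : da e.D.F (r • a) y = r • da e.D.F a y := by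
  ext s
  simp only [da, Pi.smul_apply, e.D.F.D_smul (h.1 _), PiLp.smul_apply, smul_eq_mul, mul_sub,
    mul_sum, mul_left_comm r]

theorem da_d0 (h : Sm e.Y.I χ) (y) : da e.D.F (d0 e χ) y = 0 := by
  ext s
  exact sub_eq_zero.2 ((frm _).br s.1 s.2 χ y (h y))

theorem der_of {X : Type} [NormedAddCommGroup X] [NormedSpace ℝ X] (T : FS e →ₗ[ℝ] X) {K : ℝ}
    (hT : ∀ a, ‖T a‖ ≤ K * n1 e 0 a) {α α' : ℝ → FS e}
    (h : ∀ k, Fam e.Y.I (fun s => (α s).1 k) fun s => (α' s).1 k) (t : ℝ) :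
    HasDerivAt (fun s => T (α s)) (T (α' t)) t := by
  refine .of_isLittleO (IsBigO.trans_isLittleO (.of_bound |K| (.of_forall fun s => ?_))
    (IsLittleO.fun_sum (s := univ) fun k _ => small e.D.F.toPre (h k) t))
  rw [← map_smul, ← map_sub, ← map_sub]
  exact (hT _).trans ((le_abs_self _).trans_eq (abs_mul _ _))

variable (he : e.OK)
include he

theorem dr_eq (h : Ay v) : dr v = GP v := _root_.funext fun y => by
  have h1 := eD_split he h.adm y 0
  rw [show (dt (fz v)).Φ = 0 from D_none_fst _ h.sΦ, show (fz v).a none (y, 0) = 0 from rfl,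
    zero_smul, add_zero, Pi.zero_apply, zero_add] at h1
  exact h1

theorem fc_ss (hc : e.cyl.Adm c) (y s) (i j : κ) : e.cyl.fc c (y, s) (some i, some j) =
    f0 e i j y + da e.D.F (sl c s).a y (i, j) := by
  have d := fun i j => D_some e.D.F.toPre (hc.sa j) i (y, s)
  rw [fc_eq he.cyl fun i => hc.sa i (y, s), d1, Fintype.sum_option]
  exact congrArg₂ _ (congrArg (fun T => 1 / 8 * ⟪_, hsL T⟫_ℝ) (curv_cyl he _ _ _))
    (congrArg₂ _ (congrArg₂ _ (d _ _) (d _ _)) (zero_smul ℝ (c.a none (y, s)) ▸ zero_add _))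

theorem fc_n (hc : e.cyl.Adm c) (x) {i j : Option κ} (h : i = none ∨ j = none) :
    e.cyl.fc c x (i, j) = e.D.Z.D i (c.a j) x - e.D.Z.D j (c.a i) x := by
  have h1 : curv (IC e.Y.I) e.D.Z.e e.D.Z.c e.cyl.A i j x = 0 := by
    rw [curv_cyl he]; rcases h with rfl | rfl; exacts [rfl, by cases i <;> rfl]
  have h2 : ∀ l, e.D.Z.c i j l x = 0 := fun l => by
    rcases h with rfl | rfl; exacts [rfl, by cases i <;> rfl]
  rw [fc_eq he.cyl fun i => hc.sa i x]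
  change 1 / 8 * ⟪_, hsL (curv (IC e.Y.I) e.D.Z.e e.D.Z.c e.cyl.A i j x)⟫_ℝ +
    (_ - ∑ l, e.D.Z.c i j l x • _) = _
  simp only [h1, h2, map_zero, inner_zero_right, mul_zero, zero_add, zero_smul, sum_const_zero,
    sub_zero]
  rfl

theorem fc_n0 (h : Ay v) (x) {i j : Option κ} (k : i = none ∨ j = none) :
    e.cyl.fc (fz v) x (i, j) = 0 := by
  have h1 : ∀ i, e.D.Z.D i ((fz v).a none) x = 0 := fun i => congrFun (dv_const 0) x
  have h2 : ∀ i, e.D.Z.D none ((fz v).a i) x = 0 := fun i => by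
    cases i
    exacts [h1 _, congrFun (D_none_fst _ (h.sa _)) x]
  rw [fc_n he h.adm x k]
  rcases k with rfl | rfl <;> rw [h1, h2, sub_self]

theorem fc_fz {v' : e.YC} (h : Ay v) (h' : Ay v') (y) (k : da e.D.F v.a y = da e.D.F v'.a y) :
    e.cyl.fc (fz v) (y, 0) = e.cyl.fc (fz v') (y, 0) := by
  ext ⟨i, j⟩
  rcases i with _ | i
  · rw [fc_n0 he h _ (.inl rfl), fc_n0 he h' _ (.inl rfl)]
  rcases j with _ | j
  · rw [fc_n0 he h _ (.inr rfl), fc_n0 he h' _ (.inr rfl)]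
  exact (fc_ss he h.adm y 0 i j).trans ((congrArg (fun z : Fm (κ × κ) ℝ => _ + z (i, j)) k).trans
    (fc_ss he h'.adm y 0 i j).symm)

theorem sm_J {φ : e.Y.M → Eu ν} (h : Sm e.Y.I φ) (k : κ) :
    Sm e.Y.I fun y => e.m.J (τ e k y (φ y)) := fun y => SA.clm _ (SA.app ((sy he).sm k y) (h y))

theorem sm_D0 {φ : e.Y.M → Eu ν} (h : Sm e.Y.I φ) : Sm e.Y.I (D0 e φ) :=
  (fam_D0 he (φ := fun _ => φ) ⟨sm_fst h, fun _ _ => hasDerivAt_const _ _⟩).sm.sl 0

theorem sm_GP (h : Ay v) : Sm e.Y.I (GP v) :=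
  (sm_D0 he h.sΦ).sub fun y => SA.sum _ fun k _ => SA.smul (h.sa k y) (sm_J he h.sΦ k y)

/-- the current is the adjoint of the infinitesimal gauge action -/
theorem nul_j (h : Ay v) (hχ : Sm e.Y.I χ) : Nul e.D.F.μ fun y =>
    ∑ k, e.D.F.D k χ y * qq e k v.Φ v.Φ y + 2 * ⟪GP v y, χ y • e.m.J (v.Φ y)⟫_ℝ := by
  have p0 := fun y => p_of he.cyl (h.pΦ y)
  have sJ : Sm e.Y.I fun y => e.m.J (v.Φ y) := fun y => SA.clm _ (h.sΦ y)
  refine (nul_D0 he (ψ := fun y => χ y • e.m.J (v.Φ y)) h.sΦ (hχ.smul sJ) p0 fun y => by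
    rw [map_smul, pJ he (p0 y)]).of fun y => ?_
  have e2 : D0 e (fun y => χ y • e.m.J (v.Φ y)) y = χ y • e.m.J (D0 e v.Φ y)
      - ∑ k, e.D.F.D k χ y • e.m.J (τ e k y (v.Φ y)) := by
    have n : ∀ k, nab e.Y.I e.D.F.e e.A k (fun y => e.m.J (v.Φ y)) y =
        e.m.J (nab e.Y.I e.D.F.e e.A k v.Φ y) := fun k => nab_map _ k
      (congrArg (fun T : En ν => T (v.Φ y)) (he.cyl.AJ (some k) (y, 0))).symm (h.sΦ y)
    simp only [D0, dop, fun k => nab_smul (e := e.D.F.e) (A := e.A) k (hχ y) (sJ y), n, map_add,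
      map_smul, map_neg, map_sum, ← Jτ he, ← JZ he, sum_add_distrib, smul_neg, smul_add, smul_sum,
      Pre.D_def]
    abel
  have e3 : ∀ k, ⟪e.m.J (τ e k y (v.Φ y)), e.m.J (v.Φ y)⟫_ℝ = 0 := fun k => by
    rw [Jτ he, (τ_skw he k y).self]
  have e5 : ⟪v.Φ y, e.m.J (D0 e v.Φ y)⟫_ℝ = -⟪D0 e v.Φ y, e.m.J (v.Φ y)⟫_ℝ := by
    rw [real_inner_comm, J_skw he]
  simp only [GP, e2, e3, e5, qq, inner_sub_left, inner_sub_right, sum_inner, inner_sum,
    real_inner_smul_left, real_inner_smul_right, real_inner_comm (e.m.J (τ e _ y _)) (v.Φ y),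
    mul_zero, sum_const_zero]
  ring

variable {u : e.Y.M → ℂ} (H : Hd e u) {a₀ : κ → e.Y.M → ℝ} (σ : ℝ → ℝ)

omit he in
theorem fs_η : H.η ∈ FS e := ⟨H.cl.sm, H.cl.pr⟩

omit he in
theorem da_η (y) : da e.D.F H.η y = 0 := by
  ext s
  exact sub_eq_zero.2 (H.cl.cl s.1 s.2 y)

variable (a₀) in
/-- the comparison connection -/
def hv (v : e.YC) : e.YC := ⟨a₀ + d0 e (H.G (v.a - a₀)) + σ (H.s (v.a - a₀)) • H.η, v.Φ⟩

/-- the exact part in `L²` -/
def dG (k : κ) : FS e →ₗ[ℝ] e.D.F.H 0 (triv e.Y.M ℝ) where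
  toFun a := tH e.D.F.toPre 0 (d0 e (H.G a) k)
  map_add' a b := by
    have h := H.sm _ (fo_of a.2)
    have h' := H.sm _ (fo_of b.2)
    rw [← tH_add _ 0 ((fs_d0 h).1 k) ((fs_d0 h').1 k), Submodule.coe_add, map_add]
    exact congrArg _ (e.D.F.D_add h h' k)
  map_smul' r a := by
    have h := H.sm _ (fo_of a.2)
    rw [← tH_smul _ 0 _ ((fs_d0 h).1 k), Submodule.coe_smul, map_smul]
    exact congrArg _ (e.D.F.D_smul h r k)

variable (h0 : a₀ ∈ FS e)
include h0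

omit he in
theorem ay_hv (h : Ay v) : Ay (hv H a₀ σ v) :=
  have k := add_mem (add_mem h0 (fs_d0 (H.sm _ (fo_of (sub_mem h.fs h0)))))
    ((FS e).smul_mem (σ (H.s (v.a - a₀))) (fs_η H))
  ⟨k.1, h.sΦ, k.2, h.pΦ⟩

theorem fc_hv (h : Ay v) (y) :
    e.cyl.fc (fz (hv H a₀ σ v)) (y, 0) = e.cyl.fc (fz (⟨a₀, 0⟩ : e.YC)) (y, 0) := by
  have k := H.sm _ (fo_of (sub_mem h.fs h0))
  refine fc_fz he (ay_hv H σ h0 h) (ay_of (fo_of h0)) y ?_
  rw [hv, da_add (add_mem h0 (fs_d0 k)) ((FS e).smul_mem _ (fs_η H)), da_add h0 (fs_d0 k),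
    da_smul _ (fs_η H), da_d0 k, da_η, smul_zero, add_zero, add_zero]

/-- **the derivative of the Dirac form of the comparison connection** -/
theorem p_der {σ : ℝ → ℝ} (hσ : Differentiable ℝ σ) {v w : ℝ → e.YC} (h : FY v w) (t : ℝ)
    (hχ : Sm e.Y.I χ) (hd : d0 e (H.G (w t).a) = d0 e χ) :
    HasDerivAt (fun s => ∫ y, ⟪dr (hv H a₀ σ (v s)) y, (v s).Φ y⟫_ℝ ∂e.D.F.μ)
      (2 * ∫ y, ⟪dr (hv H a₀ σ (v t)) y, (w t).Φ y + χ y • e.m.J ((v t).Φ y)⟫_ℝ ∂e.D.F.μ -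
        deriv σ (H.s ((v t).a - a₀)) * H.s (w t).a *
          ∑ k, ∫ y, H.η k y * qq e k (v t).Φ (v t).Φ y ∂e.D.F.μ) t := by
  let F := e.D.F.toPre
  let α : ℝ → FS e := fun s => ⟨_, sub_mem (h.ay s).fs h0⟩
  let α' : ℝ → FS e := fun s => ⟨_, (h.ay' s).fs⟩
  have fα : ∀ k, Fam e.Y.I (fun s => (α s).1 k) fun s => (α' s).1 k := fun k =>
    ⟨(h.a k).sm.sub (sm_fst (h0.1 k)), fun s y => ((h.a k).dr s y).sub_const _⟩
  have d1 := der_of (H.s.domRestrict (FS e)) (fun a => (H.le _ (fo_of a.2)).2.1) fα t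
  have d2 := fun k => der_of (dG H k) (fun a => (norm_tH F 0 ((fs_d0 (H.sm _ (fo_of a.2))).1 k)).trans_le
    ((nrm_D_le 0 _ k).trans (H.le _ (fo_of a.2)).1)) fα t
  have j := fam_qq he h.Φ h.Φ
  have A := fun s => ay_hv H σ h0 (h.ay s)
  have d3 : ∀ k, HasDerivAt (fun s => tH F 0 ((hv H a₀ σ (v s)).a k)) _ t := fun k => by
    refine (((d2 k).const_add (tH F 0 (a₀ k))).fun_add (((hσ _).hasDerivAt.comp t d1).smul_const
      (tH F 0 (H.η k)))).congr_of_eventuallyEq (.of_forall fun s => ?_)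
    have k1 := (fs_d0 (H.sm _ (fo_of (α s).2))).1 k
    exact (tH_add F 0 ((h0.1 k).add k1) (((FS e).smul_mem _ (fs_η H)).1 k)).trans
      (congrArg₂ _ (tH_add F 0 (h0.1 k) k1) (tH_smul F 0 _ (H.cl.sm k)))
  have d4 := (((fam_D0 he h.Φ).inner h.Φ).int F t).fun_sub
    (HasDerivAt.fun_sum fun k (_ : k ∈ univ) => (d3 k).inner ℝ (der_tH F (j k) t))
  have i0 := fun k s => ii F (((A s).sa k).mul ((j k).sm.sl s))
  refine (d4.congr_of_eventuallyEq (.of_forall fun s => ?_)).congr_deriv ?_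
  · simp only [fun k => inner_tH F ((A s).sa k) ((j k).sm.sl s), dr_eq he (A s), GP, inner_sub_left,
      sum_inner, real_inner_smul_left, Real.inner_apply]
    exact (integral_sub (ii F (((fam_D0 he h.Φ).inner h.Φ).sm.sl s))
      (integrable_finsetSum _ fun k _ => i0 k s)).trans
      (congrArg _ (integral_finsetSum _ fun k _ => i0 k s))
  · have sd := (fs_d0 hχ).1
    have i1 := fun k => ii F (((A t).sa k).mul (((j k).sm' F).sl t))
    have i2 := fun k => ii F ((sd k).mul ((j k).sm.sl t))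
    have i3 := ii F ((((fam_D0 he h.Φ).inner h.Φ).sm' F).sl t)
    have n := (nul_D0 he (h.ay' t).sΦ (h.ay t).sΦ (fun y => p_of he.cyl ((h.ay' t).pΦ y))
      fun y => p_of he.cyl ((h.ay t).pΦ y)).mul (-1) |>.add (nul_j he (A t) hχ)
    have e1 : ∀ k, dG H k (α' t) = tH F 0 (d0 e χ k) := fun k => congrArg (tH F 0) (congrFun hd k)
    simp only [e1, inner_add_left, real_inner_smul_left, fun k => inner_tH F ((A t).sa k) (((j k).sm' F).sl t),
      fun k => inner_tH F (sd k) ((j k).sm.sl t), fun k => inner_tH F (H.cl.sm k) ((j k).sm.sl t),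
      Real.inner_apply, sum_add_distrib, ← mul_sum, ← sub_sub]
    refine congrArg₂ _ ?_ rfl
    have i4 := integrable_finsetSum univ fun k _ => i1 k
    have i5 := integrable_finsetSum univ fun k _ => i2 k
    rw [← integral_const_mul]
    refine Eq.trans ?_ (n.eq ((i3.sub i4).sub i5) fun y => ?_).symm
    · rw [integral_sub' (i3.sub i4) i5, integral_sub' i3 i4, integral_finsetSum _ fun k _ => i1 k,
        integral_finsetSum _ fun k _ => i2 k]
      rfl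
    · simp only [dr_eq he (A t), inner_add_right, Pi.sub_apply, Pi.mul_apply, mul_add,
        qq_comm he _ (w t).Φ, real_inner_comm (D0 e _ y) ((w t).Φ y), sum_add_distrib]
      have : ⟪GP (hv H a₀ σ (v t)) y, (w t).Φ y⟫_ℝ = ⟪D0 e (v t).Φ y, (w t).Φ y⟫_ℝ -
          ∑ k, (hv H a₀ σ (v t)).a k y * qq e k (v t).Φ (w t).Φ y := by
        simp only [GP, inner_sub_left, sum_inner, real_inner_smul_left]; rfl
      rw [this]
      simp only [hv, d0]
      ring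

end Crest.Agent.X212.Ray9
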